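import Vale.Agent.Lib.P348.helper23.Basics

/-!
P348, pool leaf K7 (second copy, helper51): for two commuting Hermitian matrices `H`, `N` and
an eigenvalue of `H` there is a unit joint eigenvector whose `N`-eigenvalue is the largest one
among the joint eigenvectors in that eigenspace of `H`.
-/

namespace Vale.Agent.Lib.P348.H51

open Matrix

open Vale.Agent.Lib.P361 Vale.Agent.Lib.P348

theorem top_nsq_smul {n : Type*} [Fintype n] (c : ℂ) (φ : n → ℂ) :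
    nsq (c • φ) = ‖c‖ ^ 2 * nsq φ := by
  rw [nsq_def, nsq_def, Finset.mul_sum]
  refine Finset.sum_congr rfl fun σ _ => ?_
  rw [Pi.smul_apply, smul_eq_mul, norm_mul, mul_pow]

theorem top_nsq_pos {n : Type*} [Fintype n] (φ : n → ℂ) (hφ : φ ≠ 0) : 0 < nsq φ := by
  rw [nsq_def]
  obtain ⟨σ, hσ⟩ : ∃ σ, φ σ ≠ 0 := by
    by_contra hcon
    apply hφ
    funext σ
    by_contra h
    exact hcon ⟨σ, h⟩
  have h1 : 0 < ‖φ σ‖ ^ 2 := by positivity
  have h2 : ‖φ σ‖ ^ 2 ≤ ∑ τ, ‖φ τ‖ ^ 2 :=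
    Finset.single_le_sum (f := fun τ => ‖φ τ‖ ^ 2) (fun τ _ => by positivity) (Finset.mem_univ σ)
  linarith

open scoped ComplexOrder in
/-- An eigenvalue of a Hermitian matrix is real. -/
theorem top_eigenvalue_real {n : Type*} [Fintype n] (N : Matrix n n ℂ) (hN : N.IsHermitian)
    (φ : n → ℂ) (hφ : φ ≠ 0) (c : ℂ) (h : N *ᵥ φ = c • φ) : ((c.re : ℝ) : ℂ) = c := by
  have h1 : star φ ⬝ᵥ (N *ᵥ φ) = c * (star φ ⬝ᵥ φ) := by
    rw [h, dotProduct_smul, smul_eq_mul]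
  have h2 : star φ ⬝ᵥ (N *ᵥ φ) = star c * (star φ ⬝ᵥ φ) := by
    rw [dotProduct_mulVec]
    have h3 : star φ ᵥ* N = star (N *ᵥ φ) := by
      rw [star_mulVec, hN.eq]
    rw [h3, h, star_smul, smul_dotProduct, smul_eq_mul]
  have h4 : star φ ⬝ᵥ φ ≠ 0 := fun h0 => hφ (dotProduct_star_self_eq_zero.mp h0)
  have h5 : star c = c := by
    have h6 : star c * (star φ ⬝ᵥ φ) = c * (star φ ⬝ᵥ φ) := by rw [← h1, ← h2]
    exact mul_right_cancel₀ h4 h6
  exact Complex.conj_eq_iff_re.mp h5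

theorem exists_top {n : Type*} [Fintype n] [DecidableEq n] (H N : Matrix n n ℂ)
    (hH : H.IsHermitian) (hN : N.IsHermitian) (hHN : H * N = N * H) (k0 : n) :
    ∃ (Ω : n → ℂ) (m : ℝ), nsq Ω = 1 ∧ H *ᵥ Ω = (hH.eigenvalues k0 : ℂ) • Ω ∧
      N *ᵥ Ω = (m : ℂ) • Ω ∧
      ∀ (φ : n → ℂ) (m' : ℝ), φ ≠ 0 → H *ᵥ φ = (hH.eigenvalues k0 : ℂ) • φ →
        N *ᵥ φ = (m' : ℂ) • φ → m' ≤ m := by
  classical
  obtain ⟨E, hE⟩ : ∃ E : ℂ, E = (hH.eigenvalues k0 : ℂ) := ⟨_, rfl⟩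
  rw [← hE]
  obtain ⟨S, hS⟩ : ∃ S : Set ℝ, S = {m' : ℝ | ∃ φ : n → ℂ, φ ≠ 0 ∧ H *ᵥ φ = E • φ ∧
      N *ᵥ φ = (m' : ℂ) • φ} := ⟨_, rfl⟩
  have hfin : S.Finite := by
    have h1 : {μ : ℂ | Module.End.HasEigenvalue (Matrix.toLin' N) μ}.Finite :=
      Module.End.finite_hasEigenvalue (Matrix.toLin' N)
    have h2 : S ⊆ (fun x : ℝ => (x : ℂ)) ⁻¹'
        {μ : ℂ | Module.End.HasEigenvalue (Matrix.toLin' N) μ} := by
      intro m' hm'
      rw [hS] at hm'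
      obtain ⟨φ, hφ, -, hNφ⟩ := hm'
      show Module.End.HasEigenvalue (Matrix.toLin' N) (m' : ℂ)
      refine Module.End.hasEigenvalue_of_hasEigenvector (x := φ) ⟨?_, hφ⟩
      rw [Module.End.mem_eigenspace_iff, Matrix.toLin'_apply]
      exact hNφ
    exact (h1.preimage (Complex.ofReal_injective.injOn)).subset h2
  have hne : S.Nonempty := by
    obtain ⟨G, hG⟩ : ∃ G : Submodule ℂ (n → ℂ),
        G = Module.End.eigenspace (Matrix.toLin' H) E := ⟨_, rfl⟩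
    have hmemG : ∀ φ : n → ℂ, φ ∈ G ↔ H *ᵥ φ = E • φ := by
      intro φ
      rw [hG, Module.End.mem_eigenspace_iff, Matrix.toLin'_apply]
    have hinv : ∀ φ ∈ G, Matrix.toLin' N φ ∈ G := by
      intro φ hφ
      rw [hmemG] at hφ ⊢
      rw [Matrix.toLin'_apply, Matrix.mulVec_mulVec, hHN, ← Matrix.mulVec_mulVec, hφ,
        Matrix.mulVec_smul]
    have hv : (⇑(hH.eigenvectorBasis k0) : n → ℂ) ∈ G := by
      rw [hmemG, hH.mulVec_eigenvectorBasis k0, hE]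
      funext σ
      rw [Pi.smul_apply, Pi.smul_apply, Complex.real_smul, smul_eq_mul]
    have hv0 : (⇑(hH.eigenvectorBasis k0) : n → ℂ) ≠ 0 := by
      intro h0
      have h1 : hH.eigenvectorBasis k0 = 0 := by
        ext σ
        simpa using congrFun h0 σ
      have h2 := hH.eigenvectorBasis.orthonormal.1 k0
      rw [h1, norm_zero] at h2
      exact zero_ne_one h2
    have hnt : Nontrivial G :=
      ⟨⟨⟨_, hv⟩, 0, fun h => hv0 (congrArg Subtype.val h)⟩⟩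
    obtain ⟨c, hc⟩ := Module.End.exists_eigenvalue ((Matrix.toLin' N).restrict hinv)
    obtain ⟨x, hx⟩ := hc.exists_hasEigenvector
    have hx1 : ((Matrix.toLin' N).restrict hinv) x = c • x :=
      Module.End.mem_eigenspace_iff.mp hx.1
    have hx2 : N *ᵥ (x : n → ℂ) = c • (x : n → ℂ) := by
      have h3 := congrArg Subtype.val hx1
      rw [LinearMap.coe_restrict_apply, Matrix.toLin'_apply] at h3
      exact h3
    have hx0 : (x : n → ℂ) ≠ 0 := fun h => hx.2 (Subtype.ext h)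
    have hxG : H *ᵥ (x : n → ℂ) = E • (x : n → ℂ) := (hmemG _).mp x.2
    have hcr := top_eigenvalue_real N hN _ hx0 c hx2
    refine ⟨c.re, ?_⟩
    rw [hS]
    exact ⟨x, hx0, hxG, by rw [hcr]; exact hx2⟩
  obtain ⟨m, hmS, hmax⟩ : ∃ m ∈ S, ∀ m' ∈ S, m' ≤ m := by
    have hne' : hfin.toFinset.Nonempty := by
      rw [Set.Finite.toFinset_nonempty]
      exact hne
    refine ⟨hfin.toFinset.max' hne', ?_, fun m' hm' => ?_⟩
    · exact hfin.mem_toFinset.mp (Finset.max'_mem _ _)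
    · exact Finset.le_max' _ _ (hfin.mem_toFinset.mpr hm')
  rw [hS] at hmS
  obtain ⟨φ, hφ0, hHφ, hNφ⟩ := hmS
  have hpos : 0 < nsq φ := top_nsq_pos φ hφ0
  obtain ⟨c0, hc0⟩ : ∃ c0 : ℂ, c0 = (((Real.sqrt (nsq φ))⁻¹ : ℝ) : ℂ) := ⟨_, rfl⟩
  refine ⟨c0 • φ, m, ?_, ?_, ?_, ?_⟩
  · rw [top_nsq_smul, hc0, Complex.norm_real, Real.norm_eq_abs, sq_abs, inv_pow,
      Real.sq_sqrt hpos.le]
    exact inv_mul_cancel₀ hpos.ne'
  · rw [Matrix.mulVec_smul, hHφ, smul_comm]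
  · rw [Matrix.mulVec_smul, hNφ, smul_comm]
  · intro φ' m' hφ' hH' hN'
    apply hmax
    rw [hS]
    exact ⟨φ', hφ', hH', hN'⟩

end Vale.Agent.Lib.P348.H51
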